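import Vale.Agent.P301.H99.PairSec
import Vale.Agent.P301.H99.LimN
import Vale.Agent.P301.H99.MonoInd
import Vale.Agent.P301.H862.Space

/-! # Pencils without fixed divisor: algebraic independence, growth, limits -/

open scoped Manifold ContDiff ComplexOrder Topology
open Filter

set_option linter.all false

noncomputable section

namespace Vale.Agent.P301.R2.H396

open Vale.Agent.P272.K Vale.Agent.P301.H599 Vale.Agent.P301.H450 Vale.Agent.P301.H99
open Vale.Agent.P301.H862 (powL)

section defs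

variable {d : ℕ} {X : Type} [TopologicalSpace X] [ChartedSpace (Cm d) X] {ι : Type}

/-- `L^K` has two algebraically independent holomorphic sections `f 0`, `f 1` without common
divisor (a pencil without fixed divisor). -/
def HasPencil (L : LineBundle d X ι) (K : ℕ) : Prop :=
  ∃ f : Fin 2 → ι → X → ℂ, (∀ k, Sec L K (f k)) ∧ NoCommonDivisor L (f 0) (f 1) ∧
    ∀ (m : ℕ) (P : MvPolynomial (Fin 2) ℂ), P.IsHomogeneous m →
      (∀ i x, x ∈ L.U i → MvPolynomial.eval (fun k => f k i x) P = 0) → P = 0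

/-- `h⁰(X, L^(K m)) ≥ m + 1` for all `m`. -/
def HasGrowth (L : LineBundle d X ι) (K : ℕ) : Prop :=
  ∀ m : ℕ, ∃ g : Fin (m + 1) → ι → X → ℂ, (∀ a, Sec L (K * m) (g a)) ∧
    ∀ c : Fin (m + 1) → ℂ, (∀ i x, x ∈ L.U i → ∑ a, c a * g a i x = 0) → c = 0

lemma sec_powL {L : LineBundle d X ι} {K : ℕ} {f : ι → X → ℂ} (h : Sec L K f) :
    Sec (powL L K) 1 f :=
  ⟨h.1, fun i j x hi hj => by
    rw [pow_one]
    exact h.2 i j x hi hj⟩

lemma sec_of_powL {L : LineBundle d X ι} {K m : ℕ} {f : ι → X → ℂ} (h : Sec (powL L K) m f) :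
    Sec L (K * m) f :=
  ⟨h.1, fun i j x hi hj => by
    rw [pow_mul]
    exact h.2 i j x hi hj⟩

end defs

section

variable {d : ℕ} {X : Type} [TopologicalSpace X] [ChartedSpace (Cm d) X] {ι : Type}
  [IsManifold 𝓘(ℂ, Cm d) ω X] [T2Space X] [CompactSpace X] [SimplyConnectedSpace X]
  {L : LineBundle d X ι}

/-- the sections of a mobile pair are algebraically independent -/
theorem hasPencil_of_mobile {K : ℕ} (h : HasMobilePair L K) : HasPencil L K := by
  obtain ⟨f, g, hf, hg, hind, hnc⟩ := h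
  have hs : ∀ k : Fin 2, Sec L K ((![f, g] : Fin 2 → ι → X → ℂ) k) := by
    intro k
    fin_cases k
    · exact ⟨hf.holo, hf.change⟩
    · exact ⟨hg.holo, hg.change⟩
  have hi : IndSec (powL L K) (![f, g] : Fin 2 → ι → X → ℂ) := by
    intro c hc
    have h1 := hind (c 0) (c 1) (fun i x hx => by
      have h2 := hc i x hx
      rw [Fin.sum_univ_two] at h2
      exact h2)
    funext k
    fin_cases k
    · exact h1.1
    · exact h1.2
  refine ⟨![f, g], hs, ?_, ?_⟩
  · exact hnc
  · exact algIndSec2 (L := powL L K) (fun k => sec_powL (hs k)) hi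

/-- the growth of the number of sections of the powers -/
theorem HasPencil.growth {K : ℕ} (h : HasPencil L K) : HasGrowth L K := by
  intro m
  obtain ⟨f, hs, -, ha⟩ := h
  obtain ⟨g, hg, hi⟩ := AlgIndSec.sections2 (L := powL L K) (fun k => sec_powL (hs k)) ha m
  exact ⟨g, fun a => sec_of_powL (hg a), hi⟩

end

end Vale.Agent.P301.R2.H396
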